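import Vale.Agent.P283R.H.St
import Vale.Agent.P283R.Qb

/-!
# P283R, block MIN: the bound does not depend on the codimension (statements and glue)
-/

open Set

noncomputable section

namespace Vale.Agent.P283R.Mi

open Vale.Agent.P287D

section defs

variable {F : Type} [Field F] [Algebra ℂ F]

/-- the ring `S[1 / w]` -/
def Aw (S : Subalgebra ℂ F) (w : F) : Subalgebra ℂ F := Algebra.adjoin ℂ (insert w⁻¹ (S : Set F))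

theorem le_Aw (S : Subalgebra ℂ F) (w : F) : S ≤ Aw S w :=
  fun _ h => Algebra.subset_adjoin (mem_insert_of_mem _ h)

/-- `p₁` lies over `p` -/
def Ov {S : Subalgebra ℂ F} {w : F} (p : Ideal S) (p₁ : Ideal (Aw S w)) : Prop :=
  ∀ a : S, a ∈ p ↔ (⟨a, le_Aw S w a.2⟩ : Aw S w) ∈ p₁

end defs

/-- **ACu**: complete intersections of any codimension -/
def ACu : Prop := ∀ (N Q : ℕ) (ε : ℝ), 0 < Q → 0 < ε → ∃ J : ℕ, Unif Q fun n =>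
  ∀ (c : ℕ) (F F' : Type) [Field F] [Algebra ℂ F] [Field F'] [Algebra ℂ F']
    (G : Subgroup (F ≃ₐ[ℂ] F)) (S : Subalgebra ℂ F) (G' : Subgroup (F' ≃ₐ[ℂ] F'))
    (S' : Subalgebra ℂ F') (π : S' →ₐ[ℂ] S) (f : Fin c → S') (p q : Ideal S) (y : Fin N → F)
    (m : ℕ) (g h : F), Pr N G S y m g → Lci N G S G' S' π f → p.IsPrime → q.IsMaximal → p ≤ q →
    Eqn Q S q y m g h → (∀ q₀ : Ideal S, q₀ ≤ q → Hyp ε G S q₀ y m g) →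
    (∀ R, PDat S q R → 0 < ld y m g R) → ∃ A, Idx J G A S p ∧ Sol n A S p (PDat S p) y m g

/-- **the tier statement for all codimensions at once** -/
def Qu : Prop := ∀ (d Q : ℕ), 1 ≤ d → 1 ≤ Q → ∀ ε : ℝ, 0 < ε →
  ∃ N : ℕ, 1 ≤ N ∧ ∀ (K L S : Type) [Field K] [Algebra ℂ K] [Field L] [Algebra ℂ L] [Algebra K L]
    [IsScalarTower ℂ K L] [CommRing S] [Algebra ℂ S] (c : ℕ) (q : S →ₐ[ℂ] L) (f : Fin c → S)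
    (G : Subgroup (S ≃ₐ[ℂ] S)) (A : Subalgebra ℂ K) (χ : A →ₐ[ℂ] ℂ) (m : ℕ) (g : K),
    FF K d → Quo q f G A → 0 < m → g ≠ 0 →
    (∀ P, Thr A χ P → ε ≤ 1 + dsc d ((m : ℝ)⁻¹ • dv g) P) →
    Cut Q q A χ (-dsc d ((m : ℝ)⁻¹ • dv g)) →
    ∃ φ : K, φ ≠ 0 ∧ ∀ P, Thr A χ P →
      (Prm A P → (m : ℝ)⁻¹ * dv g P ≤ (N : ℝ)⁻¹ * dv φ P) ∧ -1 < dsc d ((N : ℝ)⁻¹ • dv φ) P

/-- **LOC**: localisation at one function -/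
def LOC : Prop := ∀ (N : ℕ) (F : Type) [Field F] [Algebra ℂ F] (S : Subalgebra ℂ F) (w : S),
  Aff N S → (w : F) ≠ 0 → Aff N (Aw S w) ∧ (IsIntegrallyClosed S → IsIntegrallyClosed (Aw S w)) ∧
    (∀ σ : F ≃ₐ[ℂ] F, σ w = w → (∀ a ∈ S, σ a ∈ S) → ∀ a ∈ Aw S w, σ a ∈ Aw S w) ∧
    (∀ p : Ideal S, p.IsPrime → w ∉ p → ∃ p₁ : Ideal (Aw S (w : F)), p₁.IsPrime ∧ Ov p p₁) ∧
    (∀ (p q : Ideal S) (p₁ q₁ : Ideal (Aw S (w : F))), Ov p p₁ → Ov q q₁ → p ≤ q → p₁ ≤ q₁) ∧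
    ∀ (p : Ideal S) (p₁ : Ideal (Aw S (w : F))), p₁.IsPrime → Ov p p₁ →
      (p.IsMaximal → p₁.IsMaximal) ∧ Lo (Aw S w) p₁ = Lo S p ∧
      (∀ P, Cen S p P ↔ Cen (Aw S w) p₁ P) ∧ (∀ R, PDat S p R ↔ PDat (Aw S w) p₁ R) ∧
      (∀ σ : F ≃ₐ[ℂ] F, σ w = w → (∀ a ∈ S, σ a ∈ S) → (Inr S p σ ↔ Inr (Aw S w) p₁ σ)) ∧
      ∀ q₁ : Ideal (Aw S (w : F)), q₁ ≤ p₁ →
        ∃ q : Ideal S, q ≤ p ∧ ∀ P, Cen (Aw S w) q₁ P → Cen S q P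

/-- **BND**: the embedding dimension of a klt complete intersection -/
def BND : Prop := ∀ (N c Q : ℕ) (ε : ℝ) (F F' : Type) [Field F] [Algebra ℂ F] [Field F']
  [Algebra ℂ F'] (G : Subgroup (F ≃ₐ[ℂ] F)) (S : Subalgebra ℂ F) (G' : Subgroup (F' ≃ₐ[ℂ] F'))
  (S' : Subalgebra ℂ F') (π : S' →ₐ[ℂ] S) (f : Fin c → S') (q : Ideal S) (y : Fin N → F) (m : ℕ)
  (g h : F), 0 < Q → 0 < ε → Pr N G S y m g → Lci N G S G' S' π f → q.IsMaximal →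
    Eqn Q S q y m g h → (∀ q₀ : Ideal S, q₀ ≤ q → Hyp ε G S q₀ y m g) →
    (∀ i, f i ∈ q.comap π ^ 2) → c ≤ N

/-- **SUB**: an equivariant minimal embedding near a closed point -/
def SUB : Prop := ∀ (N c : ℕ) (F F' : Type) [Field F] [Algebra ℂ F] [Field F'] [Algebra ℂ F']
  (G : Subgroup (F ≃ₐ[ℂ] F)) (S : Subalgebra ℂ F) (G' : Subgroup (F' ≃ₐ[ℂ] F'))
  (S' : Subalgebra ℂ F') (π : S' →ₐ[ℂ] S) (f : Fin c → S') (q : Ideal S),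
    Lci N G S G' S' π f → q.IsMaximal →
    ∃ (G₁ : Subgroup (F ≃ₐ[ℂ] F)) (w : S) (c₁ : ℕ) (E : Type) (_ : Field E) (_ : Algebra ℂ E)
      (H : Subgroup (E ≃ₐ[ℂ] E)) (T : Subalgebra ℂ E) (π₁ : T →ₐ[ℂ] Aw S (w : F))
      (f₁ : Fin c₁ → T), G₁ ≤ G ∧ (∀ σ ∈ G, Inr S q σ → σ ∈ G₁) ∧ w ∉ q ∧ Fix G₁ (w : F) ∧
      Lci N G₁ (Aw S w) H T π₁ f₁ ∧
      ∀ q₁ : Ideal (Aw S (w : F)), Ov q q₁ → ∀ i, f₁ i ∈ q₁.comap π₁ ^ 2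

/-- **BNDR** -/
def BNDR : Prop := EIG → HRT → DER → H.RES → H.HUP → BND

/-- **TOPU** -/
def TOPU : Prop := RAM → ACu → NT → ONE → QUO → QUO2 → FRE → Qu

theorem Qu.qb (h : Qu) (c : ℕ) : Qb c := fun d Q a b ε e =>
  (h d Q a b ε e).imp fun _ k => ⟨k.1, fun K L S _ _ _ _ _ _ _ _ => k.2 K L S c⟩

/-- the glue -/
theorem acu_of (hL : LOC) (hB : BND) (hS : SUB) (hA : ∀ c, AC c) : ACu := by
  intro N Q ε hQ hε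
  choose J n₀ n1 n2 using fun c => hA c N Q ε hQ hε
  refine ⟨∑ c ∈ Finset.range (N + 1), J c, ∏ c ∈ Finset.range (N + 1), n₀ c,
    Finset.prod_pos fun c _ => n1 c, ?_⟩
  intro n n0 dn dQ c F F' _ _ _ _ G S G' S' π f p q y m g h hP hl pp hq le he hy hd
  obtain ⟨G₁, w, c₁, E, _, _, H, T, π₁, f₁, l1, l2, wq, wf, hl₁, sq⟩ :=
    hS N c F F' G S G' S' π f q hl hq
  have w0 : (w : F) ≠ 0 := fun e => wq ((Subtype.ext e : w = 0) ▸ q.zero_mem)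
  obtain ⟨a1, a2, a3, a4, a5, a6⟩ := hL N F S w hP.aff w0
  obtain ⟨p₁, pp₁, op⟩ := a4 p pp fun k => wq (le k)
  obtain ⟨q₁, qq₁, oq⟩ := a4 q hq.isPrime wq
  obtain ⟨-, b1, b2, b3, b4, b5⟩ := a6 p p₁ pp₁ op
  obtain ⟨d0, d1, -, d3, -, d5⟩ := a6 q q₁ qq₁ oq
  have := hP.fin
  have hP₁ : Pr N G₁ (Aw S w) y m g := ⟨a1, a2 hP.nor, Finite.Set.subset (G : Set _) l1,
    fun σ k => a3 σ (wf σ k) (hP.stab σ (l1 k)), fun i σ k => hP.fy i σ (l1 k), hP.fr, hP.pos,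
    hP.ne, fun σ k => hP.fg σ (l1 k)⟩
  have he₁ : Eqn Q (Aw S w) q₁ y m g h := ⟨d1 ▸ he.1, he.2.1, fun R k => he.2.2 R ((d3 R).2 k)⟩
  have hy₁ : ∀ q₀ : Ideal (Aw S (w : F)), q₀ ≤ q₁ → Hyp ε G₁ (Aw S w) q₀ y m g := fun q₀ k => by
    obtain ⟨r, r1, r2⟩ := d5 q₀ k
    exact fun P x e e0 v => hy r r1 P (r2 P x) e e0 fun a a0 z => v a a0 fun σ s => z σ (l1 s)
  have hc : c₁ ∈ Finset.range (N + 1) := Finset.mem_range.2 (Nat.lt_succ_of_le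
    (hB N c₁ Q ε F E G₁ _ H T π₁ f₁ q₁ y m g h hQ hε hP₁ hl₁ (d0 hq) he₁ hy₁ (sq q₁ oq)))
  have le₁ := a5 p q p₁ q₁ op oq le
  have mono : ∀ R, PDat S p R → PDat S q R := fun R ⟨r, r1, r2⟩ => ⟨r, r1.trans le, r2⟩
  have he₂ : Eqn Q (Aw S w) p₁ y m g h := by
    obtain ⟨⟨s, t, ht, e⟩, h0, k⟩ := he
    exact ⟨b1 ▸ ⟨s, t, fun x => ht (le x), e⟩, h0, fun R x => k R (mono R ((b3 R).2 x))⟩
  obtain ⟨A, i, s⟩ := n2 c₁ n n0 ((Finset.dvd_prod_of_mem _ hc).trans dn) dQ F E G₁ _ H T π₁ f₁ p₁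
    y m g h hP₁ hl₁ pp₁ he₂ (fun q₀ k => hy₁ q₀ (k.trans le₁))
    fun R k => hd R (mono R ((b3 R).2 k))
  obtain ⟨U, U1, U2⟩ := i.idx
  refine ⟨A, ⟨i.le.trans l1, fun σ k => (b4 σ (wf σ (i.le k)) (hP.stab σ (l1 (i.le k)))).2
    (i.inr σ k), U,
    U1.trans (Finset.single_le_sum (fun _ _ => Nat.zero_le _) hc), fun σ k x => ?_⟩,
    fun P k => ?_⟩
  · have z : σ ∈ G₁ := l2 σ k fun a => (x a).imp fun _ b => ⟨le b.1, b.2⟩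
    exact U2 σ z ((b4 σ (wf σ z) (hP.stab σ k)).1 x)
  · obtain ⟨φ, x1, x2, x3, x4⟩ := s P ((b2 P).1 k)
    exact ⟨φ, x1, x2, fun R r => x3 R ((b3 R).1 r), x4⟩

end Vale.Agent.P283R.Mi
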