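import Vale.Agent.P283R.Mi.Gl
import Vale.Agent.P283R.Em.Re
import Vale.Agent.P283R.H.Acr1
import Vale.Agent.P283R.H.Hup
import Vale.Agent.P283R.H.Hk
import Vale.Agent.P283R.H.Bck
import Vale.Agent.P283R.H.Ree
import Vale.Agent.P283R.H.Res
import Vale.Agent.P283R.H.Gen
import Vale.Agent.P283R.H.Chr
import Vale.Agent.P283R.H.Gau
import Vale.Agent.P283R.H.Adk
import Vale.Agent.P283R.H.Mch
import Vale.Agent.P283R.H.Upq
import Vale.Agent.P283R.H.Stp95
import Vale.Agent.P283R.H.Tpd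
import Vale.Agent.P283R.Br.Lc3
import Vale.Agent.P283R.Et.All

/-!
# P283R, block MIN: the end product
-/

namespace Vale.Agent.P283R.Mi

theorem re : RE := fun _ _ _ _ _ _ _ _ _ _ _ _ _ _ hl hS q hq => Em.re hl hS q hq

theorem hup1 : H.HUP1 :=
  H.hup1_of (H.hk_of H.one H.ree H.upq (H.ga2_of H.gau) (H.adk_of H.mch)) H.tpd

theorem ac (c : ℕ) : AC c :=
  H.acr1 Fin.pt eig Fin.sem hrt der Fin.a0 H.gen H.res H.chr H.bck hup1 c

theorem acu : ACu := acu_re (bnd_of hup1) re ac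

theorem qu : Qu := qu_of re hup1 ac

theorem qn : Br.Qn := Br.qn_of qu

theorem stmU : Stm.Qu := Br.glueM qu

theorem stmE : Stm.QEc fun _ => True := Et.glueEn qn

end Vale.Agent.P283R.Mi
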