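import Vale.Agent.P283R.Mi.St
import Vale.Agent.P283R.Tp.Topc

/-!
# P283R, block MIN: the top of the chain
-/

set_option linter.all false

open Set

noncomputable section

namespace Vale.Agent.P283R.Mi

open Vale.Agent.P287D Vale.Agent.P283R.Tq

/-- a closed point over `χ` in the closure of `p` -/
theorem exists_max {K L : Type} [Field K] [Algebra ℂ K] [Field L] [Algebra ℂ L] [Algebra K L]
    [IsScalarTower ℂ K L] (hfre : FRE) {d : ℕ} {G : Subgroup (L ≃ₐ[ℂ] L)} {S : Subalgebra ℂ L}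
    {A : Subalgebra ℂ K} {χ : A →ₐ[ℂ] ℂ} (hG : Gq d G S A) {p : Ideal S} (hp : p ∈ W S A χ)
    (pp : p.IsPrime) : ∃ q ∈ W S A χ, q.IsMaximal ∧ p ≤ q := by
  obtain ⟨q, q1, q2, q3⟩ := (hfre d K L G S A hG).2.2 χ p pp hp
  obtain ⟨r, r1, r2⟩ := q.exists_le_maximal q1.ne_top
  refine ⟨r, fun a s e hs => by_contra fun c => r1.ne_top ?_, r1, q2.trans r2⟩
  have k := r2 ((q3 (a - algebraMap ℂ A (χ a)) (s - algebraMap ℂ S (χ a)) (by
    rw [Subalgebra.coe_sub, Subalgebra.coe_sub, map_sub, e, Subalgebra.coe_algebraMap,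
      Subalgebra.coe_algebraMap, ← IsScalarTower.algebraMap_apply])).2 (by simp))
  have := sub_mem hs k
  rw [sub_sub_cancel] at this
  exact Ideal.eq_top_of_isUnit_mem _ this ((IsUnit.mk0 _ c).map _)

theorem topu : TOPU := by
  intro hram ha hnt hone hquo hquo2 hfre d Q hd hQ ε hε
  obtain ⟨J, n₀, hn₀, ha⟩ := ha d Q ε hQ hε
  have hn : 2 ≤ 2 * (n₀ * Q) := Nat.le_mul_of_pos_right _ (Nat.mul_pos hn₀ hQ)
  refine ⟨2 * (n₀ * Q) * J.factorial, Nat.mul_pos (by omega) J.factorial_pos, ?_⟩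
  intro K L S _ _ _ _ _ _ _ _ c q f G A χ m g hK hq hm hg h1 h2
  obtain ⟨G₀, hG, -, dn, up⟩ := hquo d K L S c q f G A hK hq
  obtain ⟨F', _, _, G', S', π, f', hl⟩ := hquo2 d K L S c q f G A G₀ hG.aff.ff hq dn up
  obtain ⟨y, D, hy, hcn⟩ := Cb.exists_cn hK
  have hP := pr hram hK hG ⟨D, hy⟩ hm hg
  refine core hram hnt hone hfre hK hG ⟨D, hy⟩ hcn hm hg hn fun p hp pp => ?_
  obtain ⟨r, hr, r1, r2⟩ := exists_max hfre hG hp pp
  obtain ⟨h, hh⟩ := eqn hram hfre hK hq hG up ⟨D, hy⟩ hcn h2 hr r1.isPrime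
  exact ha _ (by omega) ⟨2 * Q, by ring⟩ ⟨2 * n₀, by ring⟩ c L F' G₀ q.range G' S' π f' p r _ m _ h
    hP hl pp r1 r2 hh (fun p' e => hyp hram hK hG ⟨D, hy⟩ hcn hε h1 (W.mono hr e))
    (ld_pos hram hK hG ⟨D, hy⟩ hcn hε h1 hr)

end Vale.Agent.P283R.Mi
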