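import Vale.Agent.P283R.Mi.St
import Vale.Agent.P283R.Uc.Tr

/-!
# P283R, block MIN: localisation at one function (row `LOC`)
-/

set_option linter.all false

open Set

noncomputable section

namespace Vale.Agent.P283R.Mi

open Vale.Agent.P287D Vale.Agent.P283R.Uc

variable {F : Type} [Field F] [Algebra ℂ F] {S : Subalgebra ℂ F} {w : S}

theorem inv_Aw (S : Subalgebra ℂ F) (w : F) : w⁻¹ ∈ Aw S w := Algebra.subset_adjoin (mem_insert _ _)

theorem mem_Aw (w0 : (w : F) ≠ 0) {a : F} :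
    a ∈ Aw S w ↔ ∃ (s : S) (k : ℕ), a = s / (w : F) ^ k := by
  constructor
  · intro h
    induction h using Algebra.adjoin_induction with
    | mem x hx =>
      rcases hx with rfl | hx
      · exact ⟨1, 1, by simp⟩
      · exact ⟨⟨x, hx⟩, 0, by simp⟩
    | algebraMap c => exact ⟨algebraMap ℂ S c, 0, by simp⟩
    | add x y _ _ hx hy =>
      obtain ⟨s, k, rfl⟩ := hx
      obtain ⟨t, l, rfl⟩ := hy
      refine ⟨s * w ^ l + t * w ^ k, k + l, ?_⟩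
      push_cast
      field_simp
      ring
    | mul x y _ _ hx hy =>
      obtain ⟨s, k, rfl⟩ := hx
      obtain ⟨t, l, rfl⟩ := hy
      refine ⟨s * t, k + l, ?_⟩
      push_cast
      rw [div_mul_div_comm, pow_add]
  · rintro ⟨s, k, rfl⟩
    rw [div_eq_mul_inv, ← inv_pow]
    exact mul_mem (le_Aw S w s.2) (pow_mem (inv_Aw S w) k)

theorem lo_Aw (w0 : (w : F) ≠ 0) {p : Ideal S} (hp : p.IsPrime) (hw : w ∉ p) :
    ∀ a ∈ Aw S w, a ∈ Lo S p := fun a ha => by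
  obtain ⟨s, k, rfl⟩ := (mem_Aw w0).1 ha
  exact ⟨s, w ^ k, fun m => hw (hp.mem_of_pow_mem k m), by simp⟩

theorem Ov.lz (w0 : (w : F) ≠ 0) {p : Ideal S} {p₁ : Ideal (Aw S (w : F))} (h₁ : p₁.IsPrime)
    (h : Ov p p₁) : Lz S (Aw S w) p p₁ := by
  have e : p = p₁.comap (Subalgebra.inclusion (le_Aw S w)) := Ideal.ext h
  have hp : p.IsPrime := e ▸ Ideal.comap_isPrime _ _
  refine ⟨le_Aw S w, h₁, fun a b k => (h a).trans (by rw [show (⟨a, _⟩ : Aw S w) = b from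
    Subtype.ext k]), lo_Aw w0 hp fun m => h₁.ne_top ?_⟩
  refine p₁.eq_top_of_isUnit_mem ((h w).1 m) (IsUnit.of_mul_eq_one ⟨_, inv_Aw S w⟩ ?_)
  exact Subtype.ext (mul_inv_cancel₀ w0)

theorem Ov.le (w0 : (w : F) ≠ 0) {p q : Ideal S} {p₁ q₁ : Ideal (Aw S (w : F))} (h : Ov p p₁)
    (k : Ov q q₁) (e : p ≤ q) : p₁ ≤ q₁ := fun a ha => by
  obtain ⟨s, n, l⟩ := (mem_Aw w0).1 a.2
  have e1 : (⟨s, le_Aw S w s.2⟩ : Aw S w) = a * ⟨w, le_Aw S w w.2⟩ ^ n := Subtype.ext (by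
    push_cast
    rw [l, div_mul_cancel₀ _ (pow_ne_zero _ w0)])
  have e2 : a = (⟨s, le_Aw S w s.2⟩ : Aw S w) * ⟨_, inv_Aw S w⟩ ^ n := Subtype.ext (by
    push_cast
    rw [l, div_eq_mul_inv, inv_pow])
  rw [e2]
  exact q₁.mul_mem_right _ ((k s).1 (e ((h s).2 (e1 ▸ p₁.mul_mem_right _ ha))))

theorem stab_Aw (w0 : (w : F) ≠ 0) {σ : F ≃ₐ[ℂ] F} (hw : σ w = w) (hs : ∀ a ∈ S, σ a ∈ S) :
    ∀ a ∈ Aw S w, σ a ∈ Aw S w := fun a ha => by
  obtain ⟨s, k, rfl⟩ := (mem_Aw w0).1 ha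
  exact (mem_Aw w0).2 ⟨⟨_, hs s s.2⟩, k, by rw [map_div₀, map_pow, hw]⟩

theorem aff_Aw {N : ℕ} (h : Aff N S) (w : F) : Aff N (Aw S w) := by
  classical
  obtain ⟨u, hu⟩ := h.fg
  refine ⟨h.ff, ⟨insert w⁻¹ u, ?_⟩, fun a => ?_⟩
  · rw [Finset.coe_insert, Aw, ← hu, Algebra.adjoin_insert_adjoin]
  · obtain ⟨s, t, e⟩ := h.fr a
    exact ⟨⟨s, le_Aw S w s.2⟩, ⟨t, le_Aw S w t.2⟩, e⟩

theorem nor_Aw {N : ℕ} (h : Aff N S) (w0 : (w : F) ≠ 0) (hn : IsIntegrallyClosed S) :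
    IsIntegrallyClosed (Aw S w) := by
  have := h.isFrac
  have l : Submonoid.powers w ≤ nonZeroDivisors S :=
    powers_le_nonZeroDivisors_of_noZeroDivisors fun e => w0 (by rw [e]; rfl)
  let O := Localization.subalgebra.ofField F (Submonoid.powers w) l
  have : IsIntegrallyClosed O := isIntegrallyClosed_of_isLocalization O _ l
  have e : O.toSubring = (Aw S w).toSubring := Subring.ext fun a => by
    refine Iff.trans ?_ (mem_Aw w0).symm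
    constructor
    · rintro ⟨s, _, ⟨k, rfl⟩, e⟩
      exact ⟨s, k, e.trans (by simp [div_eq_mul_inv])⟩
    · rintro ⟨s, k, e⟩
      exact ⟨s, _, ⟨k, rfl⟩, e.trans (by simp [div_eq_mul_inv])⟩
  exact IsIntegrallyClosed.of_equiv (R := O) (RingEquiv.subringCongr e)

theorem Ov.max (w0 : (w : F) ≠ 0) {p : Ideal S} {p₁ : Ideal (Aw S (w : F))} (h₁ : p₁.IsPrime)
    (h : Ov p p₁) (hp : p.IsMaximal) : p₁.IsMaximal := by
  obtain ⟨r, hr, le⟩ := p₁.exists_le_maximal h₁.ne_top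
  have k : Ov (r.comap (Subalgebra.inclusion (le_Aw S w))) r := fun _ => Iff.rfl
  have e := hp.eq_of_le (Ideal.comap_ne_top _ hr.ne_top) fun a ha => (k a).2 (le ((h a).1 ha))
  exact le.antisymm (k.le w0 h e.ge) ▸ hr

/-- **LOC** -/
theorem loc : LOC := fun N F _ _ S w h w0 =>
  ⟨aff_Aw h w, nor_Aw h w0, fun _ => stab_Aw w0, fun p hp hw =>
    let k := lz_ex (le_Aw S w) hp (lo_Aw w0 hp hw); ⟨_, k.pri, fun a => k.com a _ rfl⟩,
    fun _ _ _ _ => Ov.le w0, fun p p₁ h₁ o =>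
      let k := o.lz w0 h₁
      ⟨o.max w0 h₁, k.lo_eq, fun P => (k.cen P).symm, fun R => (k.pdat R).symm,
        fun _ hw hs => ⟨k.inr_up (stab_Aw w0 hw hs), k.inr_down hs⟩, fun q₁ e =>
          ⟨q₁.comap (Subalgebra.inclusion (le_Aw S w)), fun a ha => (o a).2 (e ha),
            fun _ c a => c ⟨a, le_Aw S w a.2⟩⟩⟩⟩

end Vale.Agent.P283R.Mi
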