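import Vale.Agent.P283R.Mi.St
import Vale.Agent.P283R.H.Res
import Vale.Agent.P283R.Tp.Eig
import Vale.Agent.P283R.Tp.Hrt
import Vale.Agent.P287D.On.Lf
import Vale.Agent.P287D.Gm.Cl

/-!
# P283R, block MIN: the embedding dimension of a klt complete intersection
-/

open Set
open Vale.Agent.P285N.Brep (jac Fr)
open Vale.Agent.P297Z

noncomputable section

namespace Vale.Agent.P283R.Mi

open Vale.Agent.P287D Dr13 H H.Re

namespace Bn

variable {F F' : Type} [Field F] [Algebra ℂ F] [Field F'] [Algebra ℂ F'] {S : Subalgebra ℂ F}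
  {S' : Subalgebra ℂ F'} {π : S' →ₐ[ℂ] S} {q : Ideal S} {N n c : ℕ}

/-- a Rees place of a maximal ideal -/
theorem rees (aff : Aff N S) (hq : q.IsMaximal) (h0 : q ≠ ⊥) : ∃ (R : Pl F) (b : S), b ∈ q ∧
    Cen S q R ∧ 0 < R.ord b ∧ Cb.Sp R {x | ∃ a ∈ q, x = a / b} := by
  classical
  have := hq.isPrime
  have := (Subalgebra.fg_iff_finiteType _).1 aff.fg
  have : IsNoetherianRing S := Algebra.FiniteType.isNoetherianRing ℂ S
  obtain ⟨P, p1, p2⟩ := On.ctr aff.ff aff.fg q h0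
  obtain ⟨T, hT⟩ := IsNoetherian.noetherian q
  have nz : Nz (T.image Subtype.val) := by
    by_contra k
    refine h0 (hT ▸ Submodule.span_eq_bot.2 fun x hx => Subtype.ext (by_contra fun e =>
      k ⟨x, Finset.mem_image_of_mem _ hx, e⟩))
  obtain ⟨_, hb, ch⟩ := On.exists_ch nz P
  obtain ⟨b, bT, rfl⟩ := Finset.mem_image.1 hb
  have bq : b ∈ q := hT ▸ Submodule.subset_span bT
  obtain ⟨G, hG, eG⟩ := Subalgebra.fg_def.1 aff.fg
  set B := Algebra.adjoin ℂ (G ∪ (· / (b : F)) '' (T.image Subtype.val : Finset F)) with hB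
  have sB : S ≤ B := eG ▸ Algebra.adjoin_mono subset_union_left
  have qB : ∀ a ∈ q, (a : F) / b ∈ B := fun a ha => by
    rw [← hT] at ha
    induction ha using Submodule.span_induction with
    | mem x hx => exact Algebra.subset_adjoin (.inr ⟨x, Finset.mem_image_of_mem _ hx, rfl⟩)
    | zero => simp
    | add x y _ _ u v => simpa [add_div] using add_mem u v
    | smul r x _ u => simpa [mul_div_assoc] using mul_mem (sB r.2) u
  have pB : ∀ a ∈ B, a ∈ P.ring := fun a => Cb.adj_mem (by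
    rintro x (hx | ⟨g, hg, rfl⟩)
    · exact p1 _ (eG ▸ Algebra.subset_adjoin hx)
    · exact ch.mem _ (On.Bf_le ch.ne (On.mem_Bf hg)))
  obtain ⟨R, r1, r2, r3⟩ := On.div_alg (k := ℂ) aff.ff (B := B)
    (Subalgebra.fg_def.2 ⟨_, hG.union ((Finset.finite_toSet _).image _), rfl⟩)
    ⟨fun x => by
      obtain ⟨s, t, rfl⟩ := aff.fr x
      have m := fun s : S => IntermediateField.algebra_adjoin_le_adjoin ℂ _ (sB s.2)
      exact IntermediateField.isAlgebraic_adjoin_iff.1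
        (isAlgebraic_algebraMap (⟨_, div_mem (m s) (m t)⟩ : IntermediateField.adjoin ℂ _))⟩
    (sB b.2) ch.ne fun e => (On.pos_iff ch.ne).1 (((p2 b).1 bq).resolve_left ch.ne) (pB _ e)
  have sR : ∀ a ∈ S, a ∈ R.ring := fun a ha => r1 a (sB ha)
  have le : q ≤ RingHom.ker (On.rh R S sR) := fun a ha => by
    rw [RingHom.mem_ker, On.rh_apply, ← div_mul_cancel₀ (a : F) ch.ne,
      Cb.rd_mul (r1 _ (qB a ha)) (sR _ b.2), (On.rd_zero_iff R (sR _ b.2)).2 (.inr r2), mul_zero]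
  have uR : {x : F | ∃ a ∈ q, x = a / b} ⊆ R.ring := by
    rintro _ ⟨a, ha, rfl⟩
    exact r1 _ (qB a ha)
  refine ⟨R, b, bq, fun a => ⟨sR _ a.2, ?_⟩, r2, Gm.sp_iff.2 ⟨uR, fun x =>
    Gm.cl_le (S := R.rd '' B) ?_ (mem_algebraicClosure_iff.2 (r3.isAlgebraic x))⟩⟩
  · rw [hq.eq_of_le (RingHom.ker_ne_top _) le, RingHom.mem_ker, On.rh_apply]
  rintro _ ⟨x, hx, rfl⟩
  induction hx using Algebra.adjoin_induction with
  | mem x hx =>
    refine Gm.sub_Cl ⟨x, ?_, rfl⟩
    rcases hx with hx | ⟨_, hg, rfl⟩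
    · exact ⟨⟨x, eG ▸ Algebra.subset_adjoin hx⟩ * b, q.mul_mem_left _ bq, by simp [ch.ne]⟩
    · obtain ⟨a, ha, rfl⟩ := Finset.mem_image.1 hg
      exact ⟨a, hT ▸ Submodule.subset_span ha, rfl⟩
  | algebraMap r =>
    rw [Cb.rd_const]
    exact IntermediateField.algebraMap_mem _ r
  | add x y hx hy u v =>
    rw [Cb.rd_add (r1 _ hx) (r1 _ hy)]
    exact add_mem u v
  | mul x y hx hy u v =>
    rw [Cb.rd_mul (r1 _ hx) (r1 _ hy)]
    exact mul_mem u v

/-- the log discrepancy of a Rees place -/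
theorem kap_rees (hK : FF F (n + 1)) {R : Pl F} {b : F} (hb : 0 < R.ord b) {v : Fin n → F}
    (a : Cb.Ada R R.t v) : AlgebraicIndependent ℂ (Fin.cons b fun i => b * v i : Fin (n + 1) → F) ∧
      kap (Fin.cons b fun i => b * v i : Fin (n + 1) → F) R + 1 = (n + 1) * R.ord b := by
  have : CharZero F := charZero_of_injective_algebraMap (algebraMap ℂ F).injective
  obtain ⟨D, hD⟩ := a.ad hK
  have b0 := On.ne_of_pos hb
  have e0 : ∀ i, D 0 (v i) = 0 := fun i => by
    simpa [(Fin.succ_ne_zero i).symm] using hD.fr.dual 0 i.succ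
  have e1 : ∀ i k, D i.succ (v k) = if i = k then 1 else 0 := fun i k => by
    simpa using hD.fr.dual i.succ k.succ
  have e2 : D 0 R.t = 1 := by simpa using hD.fr.dual 0 0
  have ej : jac D (Fin.cons b fun i => b * v i : Fin (n + 1) → F) = D 0 b * b ^ n := by
    have := Matrix.det_eq_of_forall_row_eq_smul_add_const
      (A := (Matrix.of fun i j =>
        D i ((Fin.cons b fun i => b * v i : Fin (n + 1) → F) j)).transpose)
      (B := (Matrix.of fun i j =>
        (Fin.cons (D i b) fun k => b * D i (v k) : Fin (n + 1) → F) j).transpose)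
      (Fin.cons 0 v) 0 rfl fun j i => by
        refine Fin.cases ?_ (fun j => ?_) j <;> simp
    rw [Matrix.det_transpose, Matrix.det_transpose] at this
    rw [jac, this, Matrix.det_succ_row_zero, Fin.sum_univ_succ]
    have s : (Matrix.of fun i j => (Fin.cons (D i b) fun k => b * D i (v k) :
        Fin (n + 1) → F) j).submatrix Fin.succ Fin.succ = b • (1 : Matrix _ _ F) := by
      ext i k
      simp [e1, Matrix.one_apply]
    simp [s, e0]
  obtain ⟨u, u1, u2, u3⟩ := Cb.ld_eq (Cb.dr_of (D 0)) R b0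
  have k2 : D 0 b = b / R.t * (R.ord b + R.t * (u⁻¹ * D 0 u)) := by
    have := R.t_ne
    rw [e2, div_eq_iff b0] at u3
    rw [u3]
    field_simp
    ring
  have m := mul_mem u2 (hD.pre 0 u u1)
  have k3 : ¬ Cb.Mx R (R.ord b + R.t * (u⁻¹ * D 0 u)) := fun k => by
    have := k.sub (Cb.mx_t m)
    rw [add_sub_cancel_right, Cb.mx_iff, Pl.ord_unit _ (Cb.int_mem R _) (Cb.int_inv_mem R _)]
      at this
    simp [hb.ne'] at this
  rw [Cb.mx_iff, not_or] at k3
  have k4 := Pl.ord_nonneg_of_mem _ (add_mem (Cb.int_mem R (R.ord b)) (mul_mem (Cb.t_mem R) m))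
  have k5 := div_ne_zero b0 R.t_ne
  have k6 := mul_ne_zero k5 k3.1
  refine ⟨(Cb.jac_ne_iff hD.fr _).1 (by rw [ej, k2]; exact mul_ne_zero k6 (pow_ne_zero _ b0)), ?_⟩
  rw [Cb.kap_eq hD, ej, k2, Pl.ord_mul _ k6 (pow_ne_zero _ b0), Pl.ord_mul _ k5 k3.1,
    Pl.ord_div _ b0 R.t_ne, R.ord_t, Pl.ord_pow, le_antisymm (not_lt.1 k3.2) k4]
  push_cast
  ring

variable {f : Fin c → S'} {D' : Fin (c + N) → Derivation ℂ F' F'}

theorem rh_lo (hk : ∀ s, π s = 0 → s ∈ q.comap π) {a : F'} (ha : a ∈ Lo S' (q.comap π)) :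
    rh π a ∈ Lo S q := by
  obtain ⟨s, t, ht, rfl⟩ := ha
  exact ⟨π s, π t, ht, rh_div s (mt (hk _) ht)⟩

theorem col (h : Lc π (q.comap π) f D') (hq : (q.comap π).IsPrime) {p : F → Prop}
    (p1 : ∀ x y, p x → p y → p (x + y)) (p2 : ∀ a ∈ q, ∀ r ∈ Lo S q, p (a * r)) (l) {x : S'}
    (hx : x ∈ q.comap π ^ 2) : p (rh π (D' l x)) := by
  have d : ∀ l, ∀ a ∈ loc hq, D' l a ∈ loc hq := fun l _ => der_lo hq le_rfl (h.der l)
  have k := (da_dA d l).map (rho hq h.ker)
  rw [sq] at hx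
  refine Submodule.mul_induction_on hx (fun a ha b hb => ?_) fun a b u v => ?_
  · have := k.mul ⟨a, coe_mem hq a⟩ ⟨b, coe_mem hq b⟩
    change rh π (D' l (a * b : S')) = rh π a * rh π (D' l b) + rh π b * rh π (D' l a) at this
    rw [this, rh_coe, rh_coe]
    exact p1 _ _ (p2 _ ha _ (rh_lo h.ker (h.der l b))) (p2 _ hb _ (rh_lo h.ker (h.der l a)))
  · have := k.add ⟨a, coe_mem hq a⟩ ⟨b, coe_mem hq b⟩
    change rh π (D' l (a + b : S')) = rh π (D' l a) + rh π (D' l b) at this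
    exact this ▸ p1 _ _ u v

theorem rh_jac (h : Lc π (q.comap π) f D') (hq : (q.comap π).IsPrime) (u : Fin N → S') :
    rh π (jac D' (Fin.append (fun i => (f i : F')) fun i => u i)) =
      (Matrix.of fun l m => rh π (D' l (Fin.append f u m : S'))).det := by
  have d : ∀ l, ∀ a ∈ loc hq, D' l a ∈ loc hq := fun l _ => der_lo hq le_rfl (h.der l)
  obtain ⟨J, a, b⟩ := om_dA d fun m => ⟨(Fin.append f u m : S'), coe_mem hq _⟩
  rw [← coe_append, ← a]
  exact (b F (rho hq h.ker)).symm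

end Bn

open Bn

/-- **BND** -/
theorem bnd : BND := by
  intro N c Q ε F F' _ _ _ _ G S G' S' π f q y m g h hQ hε pr l hq eq hy sq
  have pri := hq.isPrime
  have pri' : (q.comap π).IsPrime := Ideal.comap_isPrime π q
  obtain ⟨J, hJ⟩ := eig (N + c)
  obtain ⟨A', k, r, x, t, -, -, par, -, -⟩ := hJ F' S' G' _ l.aff l.sm l.fin l.stab pri'
  have dim : N + c = k + r := Gm.ff_uniq par.aff.ff l.aff.ff
  obtain ⟨D', fr, pre, -⟩ := der k r F' S' _ x t par
  have up : Up N π q f (Fin.append x fun i => (t i : F')) D' :=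
    ⟨pr.aff, pr.nor, par.aff, l.sm, by omega, l.sur, pri,
      fun i => (RingHom.mem_ker (f := π)).1 (l.ker ▸ Ideal.subset_span ⟨i, rfl⟩),
      fun a e => ⟨1, by simpa using (Ideal.ne_top_iff_one _).1 pri.ne_top, by
        rw [one_mul, ← l.ker]; exact e⟩, fr, fun a => by
      refine Fin.addCases (fun a => ?_) (fun a => ?_) a
      · obtain ⟨s, -, e⟩ := par.mem a
        rw [Fin.append_left, ← e]; exact s.2
      · rw [Fin.append_right]; exact (t a).2, pre⟩
  obtain ⟨j, j0, rs, kj⟩ := res F F' S S' π q N c _ f _ D' up y pr.fr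
  generalize (Fin.append x fun i => (t i : F')) = z at up rs
  clear fr pre dim
  generalize k + r = M at z D' up rs
  obtain rfl := up.dim
  obtain ⟨u₀, D₀, fr₀, ej⟩ := (rs_iff up).1 rs
  have J0 := right_ne_zero_of_mul (ej ▸ j0)
  have y0 := left_ne_zero_of_mul (ej ▸ j0)
  by_cases h0 : q = ⊥
  · rcases c with _ | c
    · exact Nat.zero_le _
    refine (J0 ?_).elim
    rw [rh_jac up.lc pri']
    refine Matrix.det_eq_zero_of_column_eq_zero (Fin.castAdd N 0) fun i => ?_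
    rw [Matrix.of_apply, Fin.append_left]
    exact col up.lc pri' (p := (· = 0)) (fun _ _ a b => by rw [a, b, add_zero])
      (fun a ha _ _ => by rw [h0, Ideal.mem_bot] at ha; simp [ha]) i (sq 0)
  obtain ⟨R, b, bq, ce, pos, sp⟩ := rees pr.aff hq h0
  obtain ⟨n, rfl⟩ := Ba.ff_succ pr.aff.ff R
  have : Algebra.IsAlgebraic (Algebra.adjoin ℂ (R.rd '' {x | ∃ a ∈ q, x = a / b})) R.κ := ⟨sp.2⟩
  obtain ⟨T, hT, bs⟩ := exists_isTranscendenceBasis_subset (R := ℂ)
    (R.rd '' {x | ∃ a ∈ q, x = a / b})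
  obtain ⟨e⟩ := Cardinal.mk_eq_nat_iff.1 (bs.cardinalMk_eq_trdeg.trans (Cb.trdeg_κ pr.aff.ff R))
  choose v hv ev using fun i => hT (e.symm i).2
  have b0 := On.ne_of_pos pos
  obtain ⟨ind, kr⟩ := kap_rees pr.aff.ff pos (v := v) ⟨R.ord_t, fun i => sp.1 (hv i), by
    simp only [ev]; exact bs.1.comp _ e.symm.injective⟩
  choose a _ ea using hv
  choose u hu using fun i => l.sur ((Fin.cons b a : Fin (n + 1) → S) i)
  have eu : (fun i => rh π (u i)) = (Fin.cons b fun i => b * v i : Fin (n + 1) → F) :=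
    funext fun i => by
      rw [rh_coe, hu]
      refine Fin.cases rfl (fun i => ?_) i
      simp [ea, mul_div_cancel₀ _ b0]
  have hI := ker_prime π
  have ch := up.lc.chain (u := fun i => u₀ i) (w := fun i => u i) (fun i => coe_mem hI _)
    (fun i => coe_mem hI _) fr₀
  rw [eu] at ch
  have w0 := (Cb.jac_ne_iff fr₀ _).2 ind
  have mc : ∀ i k, rh π (D' i (Fin.append f u k : S')) /
      Fin.append (fun _ => (b : F)) (fun _ => 1) k ∈ R.ring := fun i k => by
    refine Fin.addCases (fun k => ?_) (fun k => ?_) k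
    · rw [Fin.append_left, Fin.append_left]
      exact col up.lc pri' (p := fun x => x / b ∈ R.ring)
        (fun _ _ s t => by rw [add_div]; exact add_mem s t) (fun s hs r hr => by
          rw [mul_div_right_comm]; exact mul_mem (sp.1 ⟨s, hs, rfl⟩) (cen_lo ce hr)) i (sq k)
    · rw [Fin.append_right, Fin.append_right, div_one]
      exact cen_lo ce (rh_lo up.lc.ker (up.lc.der i _))
  have o1 := Cb.ord_det R (a := Matrix.of fun l m => rh π (D' l (Fin.append f u m : S')))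
    (c := Fin.append (fun _ => (b : F)) fun _ => 1)
    (fun i => Fin.addCases (fun i => by simpa using b0) (fun i => by simp) i) mc
    (by rw [← rh_jac up.lc pri', ch]; exact mul_ne_zero J0 w0)
  rw [← rh_jac up.lc pri', ch, Pl.ord_mul _ J0 w0, Fin.sum_univ_add] at o1
  simp only [Fin.append_left, Fin.append_right, Pl.ord_one, Finset.sum_const, Finset.card_univ,
    Fintype.card_fin, nsmul_eq_mul, mul_zero, add_zero] at o1
  have g0 := pr.ne
  have h1 := eq.2.1
  have m0 : (0 : ℝ) < m := Nat.cast_pos.2 pr.pos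
  have Q0 : (0 : ℝ) < Q := Nat.cast_pos.2 hQ
  have d0 : j ^ (m * Q) * h ^ m ≠ 0 := mul_ne_zero (pow_ne_zero _ j0) (pow_ne_zero _ h1)
  have ou : ∀ P : Pl F, P.ord (g ^ Q / (j ^ (m * Q) * h ^ m)) =
      Q * P.ord g - (m * Q * P.ord j + m * P.ord h) := fun P => by
    rw [Pl.ord_div _ (pow_ne_zero _ g0) d0, Pl.ord_mul _ (pow_ne_zero _ j0) (pow_ne_zero _ h1),
      Pl.ord_pow, Pl.ord_pow, Pl.ord_pow]
    push_cast; ring
  have o2 := Pl.ord_nonneg_of_mem _ (cen_lo ce ((hrt _ F S pr.aff pr.nor).2.2.1 q pri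
    (g ^ Q / (j ^ (m * Q) * h ^ m)) fun P hP => Cb.mem_ord (by
      have := eq.2.2 P hP
      rw [ld, kj P hP] at this
      have e : ((Q * P.ord g - (m * Q * P.ord j + m * P.ord h) : ℤ) : ℝ) = 0 := by
        push_cast
        field_simp at this
        linarith
      rw [ou]
      exact_mod_cast e.ge)))
  rw [ou] at o2
  have o3 := Pl.ord_nonneg_of_mem _ (cen_lo ce eq.1)
  have o4 := hy q le_rfl R ce 1 one_pos fun _ _ _ => one_dvd _
  have o5 : (R.ord j : ℝ) ≤ R.ord g / m := by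
    rw [le_div_iff₀ m0]
    have a2 : (0 : ℝ) ≤ Q * R.ord g - (m * Q * R.ord j + m * R.ord h) := by exact_mod_cast o2
    have a3 : (0 : ℝ) ≤ R.ord h := by exact_mod_cast o3
    refine le_of_mul_le_mul_left ?_ Q0
    nlinarith [mul_nonneg m0.le a3]
  rw [ld, Cb.kap_chg fr₀ y0] at o4
  rw [Cb.kap_chg fr₀ w0] at kr
  rw [ej, Pl.ord_mul _ y0 J0] at o5
  have o6 := Int.cast_le (R := ℝ).2 o1
  have p0 : (0 : ℝ) < R.ord b := by exact_mod_cast pos
  simp only [Pi.add_apply, dv_apply] at o4 kr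
  push_cast at o4 o5 o6
  have : (c : ℝ) * R.ord b ≤ ((n + 1 : ℕ) : ℝ) * R.ord b := by push_cast; linarith
  exact_mod_cast le_of_mul_le_mul_right this p0

end Vale.Agent.P283R.Mi
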