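import Vale.Agent.P283R.Mi.St
import Vale.Agent.P283R.H.Acr1
import Vale.Agent.P283R.H.Ciu
import Vale.Agent.P283R.H.Res
import Vale.Agent.P283R.Ty.L
import Vale.Agent.P283R.D.Mon
import Vale.Agent.P283R.Tp.Eig
import Vale.Agent.P283R.Tp.Der
import Vale.Agent.P283R.Tp.Hrt

/-!
# P283R, block MIN: the embedding dimension, from inversion of adjunction
-/

set_option linter.all false

open Set
open Vale.Agent.P285N.Brep (jac Fr)
open Vale.Agent.P297Z

noncomputable section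

namespace Vale.Agent.P283R.Mi

open Vale.Agent.P287D

/-- the blow up of a smooth closed point -/
theorem blow {F : Type} [Field F] [Algebra ℂ F] {N : ℕ} {S : Subalgebra ℂ F} {p : Ideal S}
    {x : Fin N → F} (h : Ch S p x) (hN : 0 < N) : ∃ (P : Pl F) (e : ℤ), Cen S p P ∧ 0 < e ∧
      kap x P + 1 = e * N ∧ ∀ n : ℕ, ∀ a ∈ p ^ n, (a : F) ≠ 0 → n * e ≤ P.ord a := by
  obtain ⟨n, rfl⟩ := Nat.exists_eq_succ_of_ne_zero hN.ne'
  obtain ⟨φ, ch⟩ := Ty.exists_ch h (Ty.crd_of der h)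
  obtain ⟨R, o, k⟩ := D.mon (Ty.rat_z0 (N := n + 1)) (fun _ => 1) 0 rfl
  obtain ⟨P, l, hO⟩ := ch.up (Q := R) fun j => by rw [o]; simp
  have e0 : 0 < P.ord (φ R.t) := l.e_pos
  have ox : ∀ j, P.ord (x j) = P.ord (φ R.t) := fun j => by
    have : P.ord (x j) = _ := ch.ord_x l j
    rwa [o, Nat.cast_one, mul_one] at this
  refine ⟨P, _, Ty.cen_of h hO fun j => ox j ▸ e0, e0, ?_, fun m a ha a0 => ?_⟩
  · have : kap x P + 1 = P.ord (φ R.t) * (kap (Co.z0 (n + 1)) R + 1) := ch.hur l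
    rw [this, k]
    simp
  · let ι : S →+* Ty.lo S p h.pri := (S.val.codRestrict _ (Ty.le_lo h.pri)).toRingHom
    have h1 := Ideal.mem_map_of_mem ι ha
    rw [Ideal.map_pow] at h1
    have h2 : p.map ι ≤ Ideal.span (range (Ty.xo h)) :=
      Ideal.map_le_iff_le_comap.2 fun b hb => Ideal.mem_comap.2 (Ty.mem_span h hb)
    exact Ty.le_ord P ((Ty.lo S p h.pri).val : Ty.lo S p h.pri →+* F) hO (x := Ty.xo h)
      (fun j => Or.inr (ox j).ge) (a := ι a) (Ideal.pow_right_mono h2 m h1) a0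

theorem bnd_of (hup : H.HUP1) : BND := by
  intro N c Q ε F F' _ _ _ _ G S G' S' π f q y m g h hQ hε pr l mx eq hy sq
  rcases c.eq_zero_or_pos with rfl | hc
  · exact Nat.zero_le _
  have pri := mx.isPrime
  have mx' : (q.comap π).IsMaximal := Ideal.comap_isMaximal_of_surjective π l.sur
  obtain ⟨J, hJ⟩ := eig (N + c)
  obtain ⟨-, k, r, x, t, -, -, par, -, -⟩ := hJ F' S' ⊥ _ l.aff l.sm inferInstance
    (fun σ hσ a ha => by rw [Subgroup.mem_bot.1 hσ]; exact ha) mx'.isPrime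
  have dim : N + c = k + r := Gm.ff_uniq par.aff.ff l.aff.ff
  have rs0 := Eg.res_max l.aff (q.comap π)
  obtain rfl : r = 0 := by
    by_contra r0
    have r1 : 0 < r := Nat.pos_of_ne_zero r0
    obtain ⟨a, ha⟩ := rs0 (t ⟨0, r1⟩)
    have := par.ind (MvPolynomial.X ⟨0, r1⟩ - MvPolynomial.C a) (by
      rwa [map_sub, MvPolynomial.aeval_X, MvPolynomial.aeval_C])
    simpa using congrArg (MvPolynomial.eval fun _ => a + 1) this
  obtain ⟨D', fr, pre, -⟩ := der k 0 F' S' _ x t par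
  have hz : (Fin.append x fun i => (t i : F')) = x := funext fun j => Fin.append_left x _ j
  rw [hz] at fr
  have up : H.Up N π q f x D' := ⟨pr.aff, pr.nor, par.aff, l.sm, by omega, l.sur, pri,
    fun i => (RingHom.mem_ker).1 (l.ker ▸ Ideal.subset_span ⟨i, rfl⟩),
    fun a ha => ⟨1, by simpa using (Ideal.ne_top_iff_one q).1 pri.ne_top, by
      rw [one_mul, ← l.ker]; exact ha⟩, fr, fun a => by
      obtain ⟨s, -, e⟩ := par.mem a
      rw [← e]; exact s.2, pre⟩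
  have f0 := H.Ciu.f_ne up
  obtain ⟨j, j0, rs, kj⟩ := H.res F F' S S' π q N c _ f _ D' up y pr.fr
  obtain ⟨⟨s, u, hu, rfl⟩, h0, eq⟩ := eq
  obtain ⟨s, rfl⟩ := l.sur s
  have s0 : (π s : F) ≠ 0 := fun e => h0 (by rw [e, zero_div])
  have u0 : (u : F) ≠ 0 := fun e => h0 (by rw [e, div_zero])
  have q0 : q ≠ ⊥ := by
    rintro rfl
    have := l.aff.noeth
    have e : (⊥ : Ideal S).comap π = Ideal.span (range f) := l.ker
    obtain ⟨a, a1, a2⟩ := Submodule.exists_sub_one_mem_and_smul_eq_zero_of_fg_of_le_smul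
      (Ideal.span (range f)) (Ideal.span (range f)) (IsNoetherian.noetherian _)
      (Ideal.span_le.2 (by
        rintro _ ⟨i, rfl⟩
        simpa [e, pow_two] using sq i))
    have := (mul_eq_zero.1 (a2 _ (Ideal.subset_span ⟨⟨0, hc⟩, rfl⟩))).resolve_right (f0 _)
    rw [this, zero_sub, neg_mem_iff, ← e] at a1
    exact mx'.ne_top ((Ideal.eq_top_iff_one _).2 a1)
  have g0 := pr.ne
  have m0 : (m : ℝ) ≠ 0 := Nat.cast_ne_zero.2 pr.pos.ne'
  have Q0 : (0 : ℝ) < Q := Nat.cast_pos.2 hQ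
  have d0 : j ^ (m * Q) * (π s : F) ^ m ≠ 0 := mul_ne_zero (pow_ne_zero _ j0) (pow_ne_zero _ s0)
  have ou : ∀ P : Pl F, P.ord (g ^ Q / (j ^ (m * Q) * (π s : F) ^ m)) =
      Q * P.ord g - (m * Q * P.ord j + m * P.ord (π s : F)) := fun P => by
    rw [Pl.ord_div _ (pow_ne_zero _ g0) d0, Pl.ord_mul _ (pow_ne_zero _ j0) (pow_ne_zero _ s0),
      Pl.ord_pow, Pl.ord_pow, Pl.ord_pow]
    push_cast; ring
  have oR : ∀ R, PDat S q R → R.ord (g ^ Q / (j ^ (m * Q) * (π s : F) ^ m)) = 0 := fun R hR => by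
    have := eq R hR
    obtain ⟨q', le, cq, -⟩ := id hR
    rw [ld, kj R hR, Pl.ord_div _ s0 u0, Hr.cen_ord cq fun k => hu (le k), sub_zero] at this
    field_simp at this
    have e : ((Q * R.ord g - (m * Q * R.ord j + m * R.ord (π s : F)) : ℤ) : ℝ) = 0 := by
      push_cast; linarith
    rw [ou]; exact_mod_cast e
  have hH := (hrt _ F S pr.aff pr.nor).2.2.1 q pri
  have ε0 : 0 < min ε 1 := lt_min hε one_pos
  have key := hup F F' S S' π q N c _ f x D' up y j ⊥ ⊥ s Q (min ε 1) hc q0 pr.fr j0 rs kj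
    ⟨inferInstance, inferInstance, fun σ hσ a ha => by rw [Subgroup.mem_bot.1 hσ]; exact ha,
      fun σ hσ a ha => by rw [Subgroup.mem_bot.1 hσ]; exact ha,
      fun σ hσ a => ⟨0, zero_mem _, by simp [Subgroup.mem_bot.1 hσ]⟩,
      fun σ hσ a => ⟨0, zero_mem _, by simp [Subgroup.mem_bot.1 hσ]⟩,
      fun σ hσ => ⟨1, one_mem _, Subgroup.mem_bot.1 hσ ▸ H.Ovr.one⟩,
      fun σ hσ => ⟨1, one_mem _, Subgroup.mem_bot.1 hσ ▸ H.Ovr.one⟩⟩
    (fun _ σ hσ => ⟨1, by simp [Subgroup.mem_bot.1 hσ]⟩)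
    (fun _ σ hσ => ⟨1, by simp [Subgroup.mem_bot.1 hσ]⟩)
    (fun σ hσ => ⟨1, by simp [Subgroup.mem_bot.1 hσ]⟩)
    (fun _ σ hσ => by simp [Subgroup.mem_bot.1 hσ]) (fun e => s0 (by rw [e]; rfl)) hQ ε0
    (min_le_right _ _) fun q₀ le P hP e he dv => by
      have lo : ∀ a ∈ Lo S q, a ∈ P.ring := fun a ⟨s, t, ht, e⟩ =>
        A0r.lo_ring hP ⟨s, t, fun k => ht (le k), e⟩
      have e1 := Pl.ord_unit P.toPlace (lo _ (hH _ fun R hR => Cb.mem_ord (oR R hR).ge))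
        (lo _ (hH _ fun R hR => Cb.inv_mem_ord (oR R hR)))
      rw [ou] at e1
      have e' : (Q : ℝ) * P.ord g - (m * Q * P.ord j + m * P.ord (π s : F)) = 0 := by
        exact_mod_cast e1
      have : ld y Q (j ^ Q * π s) P = ld y m g P := by
        rw [ld, ld, Pl.ord_mul _ (pow_ne_zero _ j0) s0, Pl.ord_pow]
        push_cast; field_simp; linarith
      rw [this]
      refine le_trans (mul_le_mul_of_nonneg_right (min_le_left _ _) (Nat.cast_nonneg _))
        (hy q₀ le P hP e he fun a a0 _ => dv a a0 fun σ hσ => by simp [Subgroup.mem_bot.1 hσ])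
  obtain ⟨P, e, cP, e0, k1, k2⟩ := blow (x := x) ⟨par.aff, par.pri, par.mem, par.gen, rs0⟩
    (by omega)
  have k3 := key P cP 1 one_pos fun _ _ _ => by simp
  have f1 : ∀ i, (f i : F') ≠ 0 := fun i e => f0 i (Subtype.ext e)
  have s1 : (s : F') ≠ 0 := fun e => s0 (by rw [show s = 0 from Subtype.ext e]; simp)
  rw [ld, Pl.ord_mul _ (pow_ne_zero _ (Finset.prod_ne_zero_iff.2 fun i _ => f1 i)) s1, Pl.ord_pow,
    A0r.ord_prod P _ _ f1] at k3
  have k4 : (c : ℝ) * (2 * e) ≤ ∑ i, (P.ord (f i : F') : ℝ) := by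
    have := Finset.card_nsmul_le_sum Finset.univ (fun i => (P.ord (f i : F') : ℝ)) (2 * e)
      fun i _ => by exact_mod_cast k2 2 _ (sq i) (f1 i)
    simpa using this
  have k5 : (0 : ℝ) ≤ P.ord (s : F') / Q :=
    div_nonneg (by exact_mod_cast Pl.ord_nonneg_of_mem P.toPlace (cP s).1) Q0.le
  have e1 : (0 : ℝ) < e := by exact_mod_cast e0
  have k6 : (k : ℝ) = N + c := by exact_mod_cast (by omega : k = N + c)
  push_cast at k3
  rw [add_div, mul_div_cancel_left₀ _ Q0.ne'] at k3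
  have : (c : ℝ) ≤ N := le_of_mul_le_mul_left (by nlinarith) e1
  exact_mod_cast this

end Vale.Agent.P283R.Mi
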