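import Vale.Agent.P283R.Mi.Loc
import Vale.Agent.P283R.Mi.Bnh
import Vale.Agent.P283R.Mi.Topu
import Vale.Agent.P283R.All
import Vale.Agent.P283R.Tp.Quo2

/-!
# P283R, block MIN: the glue from the definition-free form of the minimal embedding
-/

set_option linter.all false

open Set

noncomputable section

namespace Vale.Agent.P283R.Mi

open Vale.Agent.P287D

/-- **RE**: an equivariant minimal embedding near a closed point -/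
def RE : Prop := ∀ (N c : ℕ) (F F' : Type) [Field F] [Algebra ℂ F] [Field F'] [Algebra ℂ F']
  (G : Subgroup (F ≃ₐ[ℂ] F)) (S : Subalgebra ℂ F) (G' : Subgroup (F' ≃ₐ[ℂ] F'))
  (S' : Subalgebra ℂ F') (π : S' →ₐ[ℂ] S) (f : Fin c → S'), Lci N G S G' S' π f → Aff N S →
    ∀ q : Ideal S, q.IsMaximal → ∃ s : S, s ∉ q ∧ (∀ σ ∈ G, Inr S q σ → σ s = s) ∧
      ∀ (S₁ : Subalgebra ℂ F) (G₁ : Subgroup (F ≃ₐ[ℂ] F)),
        (∀ x, x ∈ S₁ ↔ ∃ k : ℕ, x * s ^ k ∈ S) → (∀ σ, σ ∈ G₁ ↔ σ ∈ G ∧ Inr S q σ) →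
        ∃ (c₂ : ℕ) (E : Type) (_ : Field E) (_ : Algebra ℂ E) (H : Subgroup (E ≃ₐ[ℂ] E))
          (T : Subalgebra ℂ E) (π₂ : T →ₐ[ℂ] S₁) (f₂ : Fin c₂ → T), Lci N G₁ S₁ H T π₂ f₂ ∧
          ∀ q₁ : Ideal S₁, (∀ (a : S) (b : S₁), a ∈ q → (b : F) = a → b ∈ q₁) →
            ∀ i, f₂ i ∈ q₁.comap π₂ ^ 2

/-- the glue -/
theorem acu_re (hB : BND) (hS : RE) (hA : ∀ c, AC c) : ACu := by
  intro N Q ε hQ hε
  choose J n₀ n1 n2 using fun c => hA c N Q ε hQ hε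
  refine ⟨∑ c ∈ Finset.range (N + 1), J c, ∏ c ∈ Finset.range (N + 1), n₀ c,
    Finset.prod_pos fun c _ => n1 c, ?_⟩
  intro n n0 dn dQ c F F' _ _ _ _ G S G' S' π f p q y m g h hP hl pp hq le he hy hd
  obtain ⟨w, wq, wf', k⟩ := hS N c F F' G S G' S' π f hl hP.aff q hq
  have w0 : (w : F) ≠ 0 := fun e => wq ((Subtype.ext e : w = 0) ▸ q.zero_mem)
  set G₁ := Nt.inr hP.stab q
  have l1 : G₁ ≤ G := fun _ k => k.1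
  have l2 : ∀ σ ∈ G, Inr S q σ → σ ∈ G₁ := fun _ a b => ⟨a, b⟩
  have wf : Fix G₁ (w : F) := fun σ k => wf' σ k.1 k.2
  obtain ⟨c₁, E, _, _, H, T, π₁, f₁, hl₁, sq⟩ := k (Aw S w) G₁ (fun x => by
    rw [mem_Aw w0]
    exact ⟨fun ⟨s, k, e⟩ => ⟨k, by rw [e, div_mul_cancel₀ _ (pow_ne_zero _ w0)]; exact s.2⟩,
      fun ⟨k, e⟩ => ⟨⟨_, e⟩, k, (mul_div_cancel_right₀ _ (pow_ne_zero _ w0)).symm⟩⟩)
    fun _ => Iff.rfl
  obtain ⟨a1, a2, a3, a4, a5, a6⟩ := loc N F S w hP.aff w0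
  obtain ⟨p₁, pp₁, op⟩ := a4 p pp fun k => wq (le k)
  obtain ⟨q₁, qq₁, oq⟩ := a4 q hq.isPrime wq
  obtain ⟨-, b1, b2, b3, b4, b5⟩ := a6 p p₁ pp₁ op
  obtain ⟨d0, d1, -, d3, -, d5⟩ := a6 q q₁ qq₁ oq
  have := hP.fin
  have hP₁ : Pr N G₁ (Aw S w) y m g := ⟨a1, a2 hP.nor, Finite.Set.subset (G : Set _) l1,
    fun σ k => a3 σ (wf σ k) (hP.stab σ (l1 k)), fun i σ k => hP.fy i σ (l1 k), hP.fr, hP.pos,
    hP.ne, fun σ k => hP.fg σ (l1 k)⟩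
  have he₁ : Eqn Q (Aw S w) q₁ y m g h := ⟨d1 ▸ he.1, he.2.1, fun R k => he.2.2 R ((d3 R).2 k)⟩
  have hy₁ : ∀ q₀ : Ideal (Aw S (w : F)), q₀ ≤ q₁ → Hyp ε G₁ (Aw S w) q₀ y m g := fun q₀ k => by
    obtain ⟨r, r1, r2⟩ := d5 q₀ k
    exact fun P x e e0 v => hy r r1 P (r2 P x) e e0 fun a a0 z => v a a0 fun σ s => z σ (l1 s)
  have hc : c₁ ∈ Finset.range (N + 1) := Finset.mem_range.2 (Nat.lt_succ_of_le
    (hB N c₁ Q ε F E G₁ _ H T π₁ f₁ q₁ y m g h hQ hε hP₁ hl₁ (d0 hq) he₁ hy₁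
      (sq q₁ fun a b x e => (Subtype.ext e : b = ⟨a, le_Aw S w a.2⟩) ▸ (oq a).1 x)))
  have le₁ := a5 p q p₁ q₁ op oq le
  have mono : ∀ R, PDat S p R → PDat S q R := fun R ⟨r, r1, r2⟩ => ⟨r, r1.trans le, r2⟩
  have he₂ : Eqn Q (Aw S w) p₁ y m g h := by
    obtain ⟨⟨s, t, ht, e⟩, h0, k⟩ := he
    exact ⟨b1 ▸ ⟨s, t, fun x => ht (le x), e⟩, h0, fun R x => k R (mono R ((b3 R).2 x))⟩
  obtain ⟨A, i, s⟩ := n2 c₁ n n0 ((Finset.dvd_prod_of_mem _ hc).trans dn) dQ F E G₁ _ H T π₁ f₁ p₁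
    y m g h hP₁ hl₁ pp₁ he₂ (fun q₀ k => hy₁ q₀ (k.trans le₁))
    fun R k => hd R (mono R ((b3 R).2 k))
  obtain ⟨U, U1, U2⟩ := i.idx
  refine ⟨A, ⟨i.le.trans l1, fun σ k => (b4 σ (wf σ (i.le k)) (hP.stab σ (l1 (i.le k)))).2
    (i.inr σ k), U, U1.trans (Finset.single_le_sum (fun _ _ => Nat.zero_le _) hc),
    fun σ k x => ?_⟩, fun P k => ?_⟩
  · have z : σ ∈ G₁ := l2 σ k fun a => (x a).imp fun _ b => ⟨le b.1, b.2⟩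
    exact U2 σ z ((b4 σ (wf σ z) (hP.stab σ k)).1 x)
  · obtain ⟨φ, x1, x2, x3, x4⟩ := s P ((b2 P).1 k)
    exact ⟨φ, x1, x2, fun R r => x3 R ((b3 R).1 r), x4⟩

/-- the tier statement from the two remaining inputs -/
theorem qu_of (hS : RE) (hup : H.HUP1) (hA : ∀ c, AC c) : Qu :=
  topu ram (acu_re (bnd_of hup) hS hA) nt Fin.one quo quo2 fre

end Vale.Agent.P283R.Mi
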